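import Mathlib

/-!
# Two Hall type lemmas (P038, shift inequality)

`A` is a reflexive relation (closed out-neighbourhoods), `nb A S = N[S]`.
-/

namespace Vale.Agent.P038.H95

open Finset
open scoped Classical

variable {V : Type*} [Fintype V]

/-- The closed out-neighbourhood of a set. -/
noncomputable def nb (A : V → V → Prop) (S : Finset V) : Finset V :=
  Finset.univ.filter fun y => ∃ x ∈ S, A x y

theorem mem_nb {A : V → V → Prop} {S : Finset V} {y : V} :
    y ∈ nb A S ↔ ∃ x ∈ S, A x y := by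
  simp [nb]

/-- The weight of a set. -/
noncomputable def wt (w : V → ℝ) (S : Finset V) : ℝ := ∑ v ∈ S, w v

theorem wt_mono {w : V → ℝ} (hw : ∀ v, 0 ≤ w v) {S T : Finset V} (h : S ⊆ T) :
    wt w S ≤ wt w T :=
  Finset.sum_le_sum_of_subset_of_nonneg h fun v _ _ => hw v

theorem wt_nonneg {w : V → ℝ} (hw : ∀ v, 0 ≤ w v) (S : Finset V) : 0 ≤ wt w S :=
  Finset.sum_nonneg fun v _ => hw v

theorem wt_union {w : V → ℝ} {S T : Finset V} (h : Disjoint S T) :
    wt w (S ∪ T) = wt w S + wt w T :=
  Finset.sum_union h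

theorem wt_union_inter {w : V → ℝ} (S T : Finset V) :
    wt w (S ∪ T) + wt w (S ∩ T) = wt w S + wt w T :=
  Finset.sum_union_inter

/-- Comparison of two weighted sums under a Hall condition. -/
theorem hall_sum (w : V → ℝ) (hw : ∀ v, 0 ≤ w v) (A : V → V → Prop) (T : Finset V) (n : ℕ) :
    ∀ (Z : Finset V) (e e' : V → ℝ), Z.card = n → (∀ v ∈ T, 0 ≤ e' v) →
      (∀ z ∈ Z, ∀ v ∈ T, A z v → e z ≤ e' v) →
      (∀ Z' ⊆ Z, wt w Z' ≤ wt w (T.filter fun v => ∃ z ∈ Z', A z v)) →
      ∑ z ∈ Z, w z * e z ≤ ∑ v ∈ T, w v * e' v := by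
  induction n with
  | zero =>
    intro Z e e' hZ h0 _ _
    rw [Finset.card_eq_zero.1 hZ, Finset.sum_empty]
    exact Finset.sum_nonneg fun v hv => mul_nonneg (hw v) (h0 v hv)
  | succ n ih =>
    intro Z e e' hZ h0 h1 h2
    have hne : Z.Nonempty := by
      rw [← Finset.card_pos, hZ]
      exact Nat.succ_pos n
    obtain ⟨z0, hz0, hmin⟩ := Finset.exists_min_image Z e hne
    have hcard : (Z.erase z0).card = n := by
      rw [Finset.card_erase_of_mem hz0, hZ]
      rfl
    have hsub : Z.erase z0 ⊆ Z := Finset.erase_subset _ _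
    rw [← Finset.add_sum_erase Z (fun z => w z * e z) hz0]
    rcases le_or_gt (e z0) 0 with hm | hm
    · have h3 := ih (Z.erase z0) e e' hcard h0 (fun z hz => h1 z (hsub hz))
        (fun Z' hZ' => h2 Z' (hZ'.trans hsub))
      have h4 : w z0 * e z0 ≤ 0 := mul_nonpos_of_nonneg_of_nonpos (hw z0) hm
      linarith
    · set m := e z0 with hmdef
      set T' := T.filter fun v => ∃ z ∈ Z, A z v with hT'
      have h3 := ih (Z.erase z0) (fun z => e z - m)
        (fun v => e' v - (if v ∈ T' then m else 0)) hcard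
        (by
          intro v hv
          by_cases hvT : v ∈ T'
          · simp only [if_pos hvT]
            obtain ⟨z, hz, hzv⟩ := (Finset.mem_filter.1 hvT).2
            have := h1 z hz v hv hzv
            have := hmin z hz
            linarith
          · simp only [if_neg hvT, sub_zero]
            exact h0 v hv)
        (by
          intro z hz v hv hzv
          have hvT : v ∈ T' := Finset.mem_filter.2 ⟨hv, z, hsub hz, hzv⟩
          simp only [if_pos hvT]
          have := h1 z (hsub hz) v hv hzv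
          linarith)
        (fun Z' hZ' => h2 Z' (hZ'.trans hsub))
      have h4 : ∑ v ∈ T, w v * (e' v - (if v ∈ T' then m else 0)) =
          ∑ v ∈ T, w v * e' v - m * wt w T' := by
        have h5 : ∀ v ∈ T, w v * (e' v - (if v ∈ T' then m else 0)) =
            w v * e' v - (if v ∈ T' then m * w v else 0) := by
          intro v _
          split_ifs <;> ring
        rw [Finset.sum_congr rfl h5, Finset.sum_sub_distrib]
        congr 1
        rw [← Finset.sum_filter]
        unfold wt
        rw [Finset.mul_sum]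
        refine Finset.sum_congr ?_ fun _ _ => rfl
        ext v
        simp only [Finset.mem_filter, hT']
        tauto
      have h6 : ∑ z ∈ Z.erase z0, w z * (e z - m) =
          ∑ z ∈ Z.erase z0, w z * e z - m * wt w (Z.erase z0) := by
        have h5 : ∀ z ∈ Z.erase z0, w z * (e z - m) = w z * e z - m * w z := by
          intro z _
          ring
        rw [Finset.sum_congr rfl h5, Finset.sum_sub_distrib]
        unfold wt
        rw [Finset.mul_sum]
      rw [h4, h6] at h3
      have h7 := h2 Z Finset.Subset.rfl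
      have h8 : wt w Z = w z0 + wt w (Z.erase z0) :=
        (Finset.add_sum_erase Z w hz0).symm
      have h9 : m * (w z0 + wt w (Z.erase z0)) ≤ m * wt w T' := by
        rw [← h8]
        exact mul_le_mul_of_nonneg_left h7 hm.le
      have h10 : w z0 * m = m * w z0 := mul_comm _ _
      nlinarith

/-- Layered Hall lemma. -/
theorem layer {ι : Type*} (w : V → ℝ) (hw : ∀ v, 0 ≤ w v) (A : V → V → Prop)
    (S : Finset V) (P : ι → V → Prop) (F : ι → Finset V) (I : Finset ι)
    (h1 : ∀ i ∈ I, ∀ S' ⊆ S, (∀ b ∈ S', P i b) → wt w S' ≤ wt w (nb A S' \ F i))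
    (h2 : ∀ i ∈ I, ∀ b ∈ S, ¬ P i b → ∀ x, A b x → x ∈ F i) :
    wt w (S.filter fun b => ∃ i ∈ I, P i b) ≤
      wt w (Finset.univ.filter fun x => ∃ i ∈ I, ∃ b ∈ S, P i b ∧ A b x ∧ x ∉ F i) := by
  induction I using Finset.induction_on with
  | empty =>
    have : (S.filter fun b => ∃ i ∈ (∅ : Finset ι), P i b) = ∅ := by
      ext b
      simp
    rw [this]
    exact wt_nonneg hw _
  | insert i I hi ih =>
    have ih' := ih (fun j hj => h1 j (Finset.mem_insert_of_mem hj))
      (fun j hj => h2 j (Finset.mem_insert_of_mem hj))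
    set S1 := S.filter fun b => ∃ j ∈ I, P j b with hS1
    set S2 := S.filter fun b => P i b ∧ ¬ ∃ j ∈ I, P j b with hS2
    set U1 := Finset.univ.filter fun x => ∃ j ∈ I, ∃ b ∈ S, P j b ∧ A b x ∧ x ∉ F j with hU1
    have e1 : (S.filter fun b => ∃ j ∈ insert i I, P j b) = S1 ∪ S2 := by
      ext b
      simp only [Finset.mem_filter, Finset.mem_union, Finset.mem_insert, hS1, hS2]
      constructor
      · rintro ⟨hb, j, rfl | hj, hp⟩
        · by_cases h : ∃ k ∈ I, P k b
          · exact Or.inl ⟨hb, h⟩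
          · exact Or.inr ⟨hb, hp, h⟩
        · exact Or.inl ⟨hb, j, hj, hp⟩
      · rintro (⟨hb, j, hj, hp⟩ | ⟨hb, hp, _⟩)
        · exact ⟨hb, j, Or.inr hj, hp⟩
        · exact ⟨hb, i, Or.inl rfl, hp⟩
    have hd1 : Disjoint S1 S2 := by
      rw [Finset.disjoint_left]
      intro b hb hb'
      exact (Finset.mem_filter.1 hb').2.2 (Finset.mem_filter.1 hb).2
    have hd2 : Disjoint U1 (nb A S2 \ F i) := by
      rw [Finset.disjoint_left]
      intro x hx hx'
      obtain ⟨j, hj, _, _, _, _, hxF⟩ := (Finset.mem_filter.1 hx).2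
      obtain ⟨b0, hb0, hb0x⟩ := mem_nb.1 (Finset.mem_sdiff.1 hx').1
      have hb0' := Finset.mem_filter.1 hb0
      refine hxF (h2 j (Finset.mem_insert_of_mem hj) b0 hb0'.1 ?_ x hb0x)
      intro hp
      exact hb0'.2.2 ⟨j, hj, hp⟩
    rw [e1, wt_union hd1]
    have h3 := h1 i (Finset.mem_insert_self _ _) S2 (Finset.filter_subset _ _)
      (fun b hb => (Finset.mem_filter.1 hb).2.1)
    have h4 : wt w (U1 ∪ (nb A S2 \ F i)) ≤ wt w (Finset.univ.filter fun x =>
        ∃ j ∈ insert i I, ∃ b ∈ S, P j b ∧ A b x ∧ x ∉ F j) := by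
      refine wt_mono hw ?_
      intro x hx
      refine Finset.mem_filter.2 ⟨Finset.mem_univ _, ?_⟩
      rcases Finset.mem_union.1 hx with hx | hx
      · obtain ⟨j, hj, h⟩ := (Finset.mem_filter.1 hx).2
        exact ⟨j, Finset.mem_insert_of_mem hj, h⟩
      · obtain ⟨hx1, hx2⟩ := Finset.mem_sdiff.1 hx
        obtain ⟨b, hb, hbx⟩ := mem_nb.1 hx1
        have hb' := Finset.mem_filter.1 hb
        exact ⟨i, Finset.mem_insert_self _ _, b, hb'.1, hb'.2.1, hbx, hx2⟩
    rw [wt_union hd2] at h4
    linarith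

end Vale.Agent.P038.H95
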